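import Vale.Agent.P268.Hol
import Vale.Agent.P284.H661.Lim2

/-! P284Z, block N: square integrable families of holomorphic functions. -/

open scoped Topology ENNReal
open Filter Set Metric MeasureTheory Asymptotics

noncomputable section

namespace Vale.Agent.P284Z.N

open Vale.Agent.P284.H661.Lim

variable {W : Type} [NormedAddCommGroup W] [NormedSpace ℂ W]

theorem mean_circle {r : ℝ} {z₀ : W} {G : W → ℂ} (hG : DifferentiableOn ℂ G (ball z₀ r)) {v : W}
    (hv : v ∈ ball (0 : W) r) : ENNReal.ofReal (2 * Real.pi) * ‖G z₀‖ₑ ^ 2 ≤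
      ∫⁻ θ in Ioc (0 : ℝ) (2 * Real.pi), ‖G (z₀ + circleMap 0 1 θ • v)‖ₑ ^ 2 := by
  rw [mem_ball_zero_iff] at hv
  have hd : DifferentiableOn ℂ (fun t : ℂ => G (z₀ + t • v) ^ 2) (closedBall 0 1) := by
    refine DifferentiableOn.pow (hG.comp (by fun_prop) fun t ht => ?_) 2
    rw [mem_closedBall_zero_iff] at ht
    rw [mem_ball, dist_eq_norm, add_sub_cancel_left, norm_smul]
    exact (mul_le_of_le_one_left (norm_nonneg _) ht).trans_lt hv
  have h1 : DiffContOnCl ℂ (fun t : ℂ => G (z₀ + t • v) ^ 2) (ball 0 |1|) := by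
    rw [abs_one]
    exact hd.diffContOnCl_ball le_rfl
  have h2 := h1.circleAverage
  have hpi : (0 : ℝ) < 2 * Real.pi := by positivity
  rw [Real.circleAverage_def, zero_smul, add_zero, inv_smul_eq_iff₀ hpi.ne',
    intervalIntegral.integral_of_le hpi.le] at h2
  have h3 : ENNReal.ofReal (2 * Real.pi) * ‖G z₀‖ₑ ^ 2 = ‖(2 * Real.pi) • G z₀ ^ 2‖ₑ := by
    rw [enorm_smul, enorm_pow, Real.enorm_eq_ofReal hpi.le]
  rw [h3, ← h2]
  refine (enorm_integral_le_lintegral_enorm _).trans (le_of_eq ?_)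
  simp only [enorm_pow]

/-- the mean value inequality on a ball -/
theorem mean_ball [MeasurableSpace W] [BorelSpace W] [SecondCountableTopology W] (μ : Measure W)
    [SFinite μ] [μ.IsAddLeftInvariant]
    (hrot : ∀ c : ℂ, ‖c‖ = 1 → MeasurePreserving (fun v : W => c • v) μ μ) {r : ℝ} {z₀ : W}
    {G : W → ℂ} (hG : DifferentiableOn ℂ G (ball z₀ r)) :
    ‖G z₀‖ₑ ^ 2 * μ (ball 0 r) ≤ ∫⁻ z in ball z₀ r, ‖G z‖ₑ ^ 2 ∂μ := by
  classical
  let H : W → ℝ≥0∞ := (ball z₀ r).piecewise (fun z => ‖G z‖ₑ ^ 2) fun _ => 0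
  have hH : Measurable H :=
    ((ENNReal.continuous_pow 2).comp_continuousOn hG.continuousOn.enorm).measurable_piecewise
      continuousOn_const isOpen_ball.measurableSet
  have hR : ∫⁻ z in ball z₀ r, ‖G z‖ₑ ^ 2 ∂μ = ∫⁻ z, H z ∂μ :=
    (lintegral_indicator isOpen_ball.measurableSet _).symm
  have h1 : ∀ θ : ℝ, ∫⁻ v, H (z₀ + circleMap 0 1 θ • v) ∂μ = ∫⁻ z, H z ∂μ := fun θ =>
    ((measurePreserving_add_left μ z₀).comp (hrot _ (by simp))).lintegral_comp hH
  have hm : Measurable (Function.uncurry fun (θ : ℝ) (v : W) => H (z₀ + circleMap 0 1 θ • v)) :=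
    hH.comp (continuous_const.add (((continuous_circleMap 0 1).comp continuous_fst).smul
      continuous_snd)).measurable
  have h2 : ENNReal.ofReal (2 * Real.pi) * (‖G z₀‖ₑ ^ 2 * μ (ball 0 r)) ≤
      ENNReal.ofReal (2 * Real.pi) * ∫⁻ z, H z ∂μ :=
    calc ENNReal.ofReal (2 * Real.pi) * (‖G z₀‖ₑ ^ 2 * μ (ball 0 r))
        = ∫⁻ _ in ball (0 : W) r, ENNReal.ofReal (2 * Real.pi) * ‖G z₀‖ₑ ^ 2 ∂μ := by
          rw [setLIntegral_const, mul_assoc]
      _ ≤ ∫⁻ v in ball (0 : W) r, ∫⁻ θ in Ioc (0 : ℝ) (2 * Real.pi),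
            H (z₀ + circleMap 0 1 θ • v) ∂volume ∂μ := by
          refine setLIntegral_mono' isOpen_ball.measurableSet fun v hv =>
            (mean_circle hG hv).trans (le_of_eq (lintegral_congr fun θ => ?_))
          have h3 : z₀ + circleMap 0 1 θ • v ∈ ball z₀ r := by
            simpa [mem_ball, dist_eq_norm, norm_smul] using hv
          simp only [H, piecewise_eq_of_mem _ _ _ h3]
      _ ≤ ∫⁻ v, ∫⁻ θ in Ioc (0 : ℝ) (2 * Real.pi), H (z₀ + circleMap 0 1 θ • v) ∂volume ∂μ :=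
          setLIntegral_le_lintegral _ _
      _ = ∫⁻ θ in Ioc (0 : ℝ) (2 * Real.pi), ∫⁻ v, H (z₀ + circleMap 0 1 θ • v) ∂μ :=
          (lintegral_lintegral_swap hm.aemeasurable).symm
      _ = _ := by
          simp only [h1]
          rw [setLIntegral_const, Real.volume_Ioc, sub_zero, mul_comm]
  rw [hR]
  exact (ENNReal.mul_le_mul_iff_right (by simpa using Real.pi_pos) ENNReal.ofReal_ne_top).1 h2

variable {Λ : Type}

theorem mem_of_le (a : L2 Λ) {b : Λ → ℂ} {C : ℝ} (h : ∀ l, ‖b l‖ ≤ C * ‖a l‖) : Memℓp b 2 :=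
  mem_iff.2 (Summable.of_nonneg_of_le (fun _ => by positivity) (fun l => by
    rw [← mul_pow]
    exact pow_le_pow_left₀ (norm_nonneg _) (h l) 2) ((summable_sq a).mul_left (C ^ 2)))

/-- a dominated family of holomorphic functions is a holomorphic map -/
theorem diff_vec [FiniteDimensional ℂ W] {f : Λ → W → ℂ} {x : W} {r : ℝ} (hr : 0 < r)
    (hf : ∀ l, DifferentiableOn ℂ (f l) (ball x r)) (a : L2 Λ)
    (hb : ∀ l, ∀ q ∈ ball x r, ‖f l q‖ ≤ ‖a l‖) :
    DifferentiableAt ℂ (fun q => vec fun l => f l q) x := by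
  have h1 : ∀ l, ‖fderiv ℂ (f l) x‖ ≤ ‖a l‖ / r := fun l =>
    P268.norm_fderiv_le_of_ball hr (hf l) (hb l)
  have h2 : ∀ l v, ‖fderiv ℂ (f l) x v‖ ≤ ‖v‖ / r * ‖a l‖ := fun l v =>
    ((fderiv ℂ (f l) x).le_of_opNorm_le (h1 l) v).trans_eq (by ring)
  let D : W →ₗ[ℂ] L2 Λ :=
    { toFun := fun v => ⟨fun l => fderiv ℂ (f l) x v, mem_of_le a fun l => h2 l v⟩
      map_add' := fun v w => lp.ext (funext fun l => map_add (fderiv ℂ (f l) x) v w)
      map_smul' := fun c v => lp.ext (funext fun l => map_smul (fderiv ℂ (f l) x) c v) }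
  have hm : ∀ q ∈ ball x r, Memℓp (fun l => f l q) 2 := fun q hq =>
    mem_of_le a (C := 1) fun l => by simpa using hb l q hq
  have h3 : ∀ l, ∀ q ∈ ball x r, ‖f l q - f l x - fderiv ℂ (f l) x (q - x)‖ ≤
      3 * (‖q - x‖ / r) ^ 2 * ‖a l‖ := by
    intro l q hq
    have h4 := Complex.dist_le_mul_div_pow_of_mapsTo_ball_of_isLittleO
      (f := fun q => f l q - fderiv ℂ (f l) x (q - x)) (R₂ := 3 * ‖a l‖) (n := 1)
      ((hf l).sub (by fun_prop)) (fun y hy => ?_) ?_ hq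
    · simp only [dist_eq_norm, sub_self, map_zero, sub_zero] at h4
      rw [sub_right_comm]
      exact h4.trans_eq (by ring)
    · have b1 := hb l y hy
      have b2 := hb l x (mem_ball_self hr)
      have b3 := (h2 l (y - x)).trans (mul_le_of_le_one_left (norm_nonneg _)
        ((div_le_one hr).2 (mem_ball_iff_norm.1 hy).le))
      simp only [mem_closedBall, dist_eq_norm, sub_self, map_zero, sub_zero]
      have b4 := norm_sub_le (f l y - fderiv ℂ (f l) x (y - x)) (f l x)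
      have b5 := norm_sub_le (f l y) (fderiv ℂ (f l) x (y - x))
      linarith
    · have h5 := ((hf l).differentiableAt (ball_mem_nhds x hr)).hasFDerivAt.isLittleO
      simp only [sub_self, map_zero, sub_zero, pow_one, isLittleO_norm_right]
      exact h5.congr_left fun y => sub_right_comm _ _ _
  refine (HasFDerivAt.of_isLittleO (f' := LinearMap.toContinuousLinearMap D) ?_).differentiableAt
  refine IsBigO.trans_isLittleO (g := fun q => ‖q - x‖ ^ 2) ?_ (isLittleO_pow_sub_sub x one_lt_two)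
  refine IsBigO.of_bound (3 / r ^ 2 * ‖a‖) ?_
  filter_upwards [ball_mem_nhds x hr] with q hq
  refine (norm_le_of (y := a) (C := 3 * (‖q - x‖ / r) ^ 2) (by positivity) fun l => ?_).trans_eq ?_
  · rw [lp.coeFn_sub, lp.coeFn_sub, Pi.sub_apply, Pi.sub_apply, vec_apply (hm q hq),
      vec_apply (hm x (mem_ball_self hr))]
    exact h3 l q hq
  · rw [Real.norm_of_nonneg (by positivity)]
    ring

theorem an_vec [FiniteDimensional ℂ W] {f : Λ → W → ℂ} {U : Set W} (hU : IsOpen U)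
    (hf : ∀ l, DifferentiableOn ℂ (f l) U) (a : L2 Λ) (hb : ∀ l, ∀ q ∈ U, ‖f l q‖ ≤ ‖a l‖) :
    AnalyticOnNhd ℂ (fun q => vec fun l => f l q) U := by
  refine P268.analyticOnNhd_of_differentiableOn hU fun x hx => ?_
  obtain ⟨r, hr, h⟩ := Metric.isOpen_iff.1 hU x hx
  exact (diff_vec hr (fun l => (hf l).mono h) a fun l q hq => hb l q (h hq)).differentiableWithinAt

/-- a dominating vector from integral bounds -/
theorem exists_dom {A : Λ → ℝ≥0∞} (hA : ∑' l, A l ≠ ⊤) {V : ℝ≥0∞} (h0 : V ≠ 0) (h1 : V ≠ ⊤) :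
    ∃ a : L2 Λ, ∀ l (c : ℂ), ‖c‖ₑ ^ 2 * V ≤ A l → ‖c‖ ≤ ‖a l‖ := by
  have hV : 0 < V.toReal := ENNReal.toReal_pos h0 h1
  have e : ∀ l, ‖((Real.sqrt ((A l).toReal / V.toReal) : ℝ) : ℂ)‖ ^ 2 = (A l).toReal / V.toReal :=
    fun l => by
      rw [Complex.norm_real, Real.norm_of_nonneg (Real.sqrt_nonneg _), Real.sq_sqrt (by positivity)]
  refine ⟨⟨fun l => (Real.sqrt ((A l).toReal / V.toReal) : ℝ), mem_iff.2 ?_⟩, fun l c hc => ?_⟩
  · simp only [e]
    exact (ENNReal.summable_toReal hA).div_const _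
  · refine le_of_sq_le_sq ((le_div_iff₀ hV).2 ?_ |>.trans_eq (e l).symm) (norm_nonneg _)
    have h2 := ENNReal.toReal_mono (ENNReal.ne_top_of_tsum_ne_top hA l) hc
    simpa using h2

theorem finite_ge (x : L2 Λ) {c : ℝ} (hc : 0 < c) : {l | c ≤ ‖x l‖}.Finite := by
  have h := (summable_sq x).tendsto_cofinite_zero.eventually_lt_const (pow_pos hc 2)
  refine (eventually_cofinite.1 h).subset fun l hl => not_lt.2 ?_
  exact pow_le_pow_left₀ hc.le hl 2

end Vale.Agent.P284Z.N
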