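import Vale.Agent.P284Z.SpecX
import Vale.Agent.P284Z.N.L2
import Vale.Agent.P284.H221.Good

/-! P284Z, block N: basic tensors give a natural form of full rank. -/

open scoped Manifold ContDiff Topology ENNReal
open Filter Set Metric MeasureTheory

noncomputable section

namespace Vale.Agent.P284Z

open Vale.Agent.P272.K Vale.Agent.P284.H894.G Vale.Agent.P284.H837 Vale.Agent.P284.H837.N
  Vale.Agent.P284.H573 Vale.Agent.P284.H221 Vale.Agent.P284.H661.Lim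

namespace N

variable {n : ℕ} {Γ E : Type} [Group Γ] [TopologicalSpace E] [MulAction Γ E] {C : Cov n Γ E}
  {q k : ℕ} {ι : Type}

theorem B_mono {s t : ℝ} (h : s ≤ t) (a : C.I) : C.B s a ⊆ C.B t a :=
  ball_subset_ball (mul_le_mul_of_nonneg_right h (C.r_pos a).le)

theorem ten_dom [Fintype ι] (T : ι → Ten C q k) (a : C.I) : ∃ A : L2 (Γ × ι), ∀ l,
    ∀ z ∈ C.B 2 a, ∀ ξ, ‖ξ‖ < 1 / 2 → ‖(T l.2).τ l.1⁻¹ a z ξ‖ ≤ ‖A l‖ := by
  have hr := C.r_pos a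
  have : (volume : Measure (Cm n)).IsAddHaarMeasure := Measure.pi.isAddHaarMeasure _
  have : (volume : Measure (Fin q → Cm n)).IsAddHaarMeasure := Measure.pi.isAddHaarMeasure _
  have : (volume : Measure (Cm n × (Fin q → Cm n))).IsAddHaarMeasure :=
    Measure.prod.instIsAddHaarMeasure _ _
  have hρ : 0 < min (C.r a) (1 / 2) := lt_min hr (by norm_num)
  obtain ⟨A, hA⟩ := exists_dom (A := fun l : Γ × ι => ∫⁻ w in C.B 3 a ×ˢ ball (0 : Fin q → Cm n) 1,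
      ‖(T l.2).τ l.1⁻¹ a w.1 w.2‖ₑ ^ 2) (by
    rw [ENNReal.tsum_prod', ENNReal.tsum_comm, tsum_fintype]
    refine ENNReal.sum_ne_top.2 fun i _ => ?_
    exact ((Equiv.inv Γ).tsum_eq fun g => ∫⁻ w in C.B 3 a ×ˢ ball (0 : Fin q → Cm n) 1,
      ‖(T i).τ g a w.1 w.2‖ₑ ^ 2).trans_ne ((T i).l2 a).ne)
    (measure_ball_pos volume (0 : Cm n × (Fin q → Cm n)) hρ).ne' measure_ball_lt_top.ne
  refine ⟨A, fun l z hz ξ hξ => hA l _ ?_⟩
  have hs : ball (z, ξ) (min (C.r a) (1 / 2)) ⊆ C.B 3 a ×ˢ ball (0 : Fin q → Cm n) 1 := by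
    rw [← ball_prod_same]
    refine prod_mono (ball_subset_ball' ?_) (ball_subset_ball' ?_)
    · have h1 : dist z (C.c a) < 2 * C.r a := hz
      linarith [min_le_left (C.r a) (1 / 2)]
    · rw [dist_zero_right]
      linarith [min_le_right (C.r a) (1 / 2)]
  refine (mean_ball volume (fun c hc => ?_) (z₀ := (z, ξ))
    (G := fun w => (T l.2).τ l.1⁻¹ a w.1 w.2) (((T l.2).an _ a).differentiableOn.mono
      (hs.trans (prod_mono (B_mono (by norm_num) a) (subset_univ _))))).trans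
    (lintegral_mono_set hs)
  have h1 : MeasurePreserving (fun z : ℂ => c * z) volume volume :=
    (rotation (⟨c, mem_sphere_zero_iff_norm.2 hc⟩ : Circle)).measurePreserving
  exact (volume_preserving_pi fun _ : Fin n => h1).prod
    (volume_preserving_pi fun _ : Fin q => volume_preserving_pi fun _ : Fin n => h1)

/-- the values of the tensors on all the sheets -/
def G (T : ι → Ten C q k) (a : C.I) (w : Cm n × (Fin q → Cm n)) : L2 (Γ × ι) :=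
  vec fun l => (T l.2).τ l.1⁻¹ a w.1 w.2

theorem G_an [Fintype ι] (T : ι → Ten C q k) {a : C.I} {z : Cm n} (hz : z ∈ C.B 2 a)
    (ξ : Fin q → Cm n) :
    (∀ l, G T a (z, ξ) l = (T l.2).τ l.1⁻¹ a z ξ) ∧ AnalyticAt ℂ (G T a) (z, ξ) := by
  obtain ⟨A, hA⟩ := ten_dom T a
  have h0 : 0 < 2 * (‖ξ‖ + 1) := by positivity
  let t : ℂ := (2 * (‖ξ‖ + 1) : ℝ)
  have ht : t ≠ 0 := Complex.ofReal_ne_zero.2 h0.ne'
  have hb : ∀ l, ∀ w ∈ C.B 2 a ×ˢ ball (0 : Fin q → Cm n) (‖ξ‖ + 1), ‖(T l.2).τ l.1⁻¹ a w.1 w.2‖ ≤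
      ‖((Matrix.diagonal fun _ : Fin q => t).det ^ k • A) l‖ := by
    intro l w hw
    have h1 := (T l.2).det l.1⁻¹ a w.1 (B_mono (by norm_num) a hw.1)
      (Matrix.diagonal fun _ => t) (t⁻¹ • w.2)
    have h2 : (fun i => ∑ i', Matrix.diagonal (fun _ : Fin q => t) i i' • (t⁻¹ • w.2) i') = w.2 := by
      funext i
      simp [Matrix.diagonal_apply, ite_smul, smul_inv_smul₀ ht]
    rw [h2] at h1
    rw [h1, lp.coeFn_smul, Pi.smul_apply, norm_smul, norm_mul]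
    refine mul_le_mul_of_nonneg_left (hA l _ hw.1 _ ?_) (norm_nonneg _)
    rw [norm_smul, norm_inv, Complex.norm_real, Real.norm_of_nonneg h0.le, inv_mul_lt_iff₀ h0]
    linarith [mem_ball_zero_iff.1 hw.2]
  have hm : (z, ξ) ∈ C.B 2 a ×ˢ ball (0 : Fin q → Cm n) (‖ξ‖ + 1) := ⟨hz, by simp⟩
  have h1 : Memℓp (fun l : Γ × ι => (T l.2).τ l.1⁻¹ a z ξ) 2 :=
    mem_of_le _ (C := 1) fun l => (hb l _ hm).trans_eq (one_mul _).symm
  have h2 := an_vec (f := fun (l : Γ × ι) w => (T l.2).τ l.1⁻¹ a w.1 w.2)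
    (isOpen_ball.prod isOpen_ball) (fun l => ((T l.2).an _ a).differentiableOn.mono
      (prod_mono (B_mono (by norm_num) a) (subset_univ _))) _ hb _ hm
  exact ⟨fun l => vec_apply h1 l, h2⟩

/-- the translation on the indices -/
def sg (ι : Type) (γ : Γ) : Γ × ι ≃ Γ × ι := (Equiv.mulLeft γ⁻¹).prodCongr (Equiv.refl ι)

theorem sg_apply (γ : Γ) (l : Γ × ι) : sg ι γ l = (γ⁻¹ * l.1, l.2) := rfl

theorem src {a : C.I} {z : Cm n} (hz : z ∈ C.B 4 a) : z ∈ (C.e a).target := (C.tgt a).symm ▸ hz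

theorem near {γ : Γ} {a : C.I} {z : Cm n} (hz : z ∈ C.B 4 a) {U : Set (Cm n)} (hU : U ∈ 𝓝 z) :
    ∀ᶠ y in 𝓝 (C.pt γ a z), ∃ w ∈ U, y = C.pt γ a w := by
  have h1 : Tendsto (fun y : E => γ⁻¹ • y) (𝓝 (C.pt γ a z)) (𝓝 ((C.e a).symm z)) :=
    (C.cont γ⁻¹).tendsto' _ _ (inv_smul_smul _ _)
  have h2 := (C.e a).map_target (src hz)
  have h3 := ((C.e a).continuousAt h2).tendsto.comp h1
  rw [(C.e a).right_inv (src hz)] at h3
  filter_upwards [h1.eventually ((C.e a).open_source.mem_nhds h2), h3.eventually hU] with y h4 h5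
  exact ⟨_, h5, by rw [Cov.pt, Function.comp, (C.e a).left_inv h4, smul_inv_smul]⟩

variable {X : Type} [TopologicalSpace X] [ChartedSpace (Cm n) X] {p : E → X}
  {ea : C.I → Chart n X}

theorem p_smul (hp : IsGalois Γ p) (g : Γ) (y : E) : p (g • y) = p y :=
  ((hp.orb y _).2 ⟨g, rfl⟩).symm

/-- the charts of the covering are lifted from the charts `ea` -/
def Ov (C : Cov n Γ E) (p : E → X) (ea : C.I → Chart n X) : Prop :=
  ∀ a, ∀ y ∈ (C.e a).source, At (ea a) (p y) ∧ C.e a y = ea a (p y)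

theorem pt_at (hp : IsGalois Γ p) (h : Ov C p ea) (γ : Γ) {a : C.I} {z : Cm n}
    (hz : z ∈ C.B 4 a) : At (ea a) (p (C.pt γ a z)) ∧ ea a (p (C.pt γ a z)) = z := by
  obtain ⟨h1, h2⟩ := h a _ ((C.e a).map_target (src hz))
  rw [Cov.pt, p_smul hp, ← h2, (C.e a).right_inv (src hz)]
  exact ⟨h1, rfl⟩

/-- the derivative of the change of charts -/
def D (e e' : Chart n X) (x : X) : Cm n →L[ℂ] Cm n := fderiv ℂ (fun z => e' (e.symm z)) (e x)

theorem D_self {e : Chart n X} {x : X} (h : At e x) (v : Cm n) : D e e x v = v := by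
  have h1 : (fun z => e (e.symm z)) =ᶠ[𝓝 (e x)] id := h.nhds_target.mono fun z hz => e.right_inv hz
  rw [D, h1.fderiv_eq, fderiv_id]
  rfl

theorem tr_fderiv (hp : IsGalois Γ p) (h : Ov C p ea) {g : Γ} {a b : C.I} {z : Cm n}
    (ho : C.Ov g a b z) : fderiv ℂ (C.tr g a b) z = D (ea a) (ea b) (p (C.pt g a z)) := by
  rw [D, (pt_at hp h g ho.1).2]
  refine Filter.EventuallyEq.fderiv_eq ?_
  have h1 : ContinuousAt (C.pt g a) z :=
    (C.cont g).continuousAt.comp ((C.e a).continuousAt_symm (src ho.1))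
  filter_upwards [isOpen_ball.mem_nhds ho.1, h1.eventually ((C.e b).open_source.mem_nhds ho.2)]
    with w h2 h3
  obtain ⟨h4, h5⟩ := pt_at hp h g h2
  rw [Cov.tr, (h b _ h3).2, ← h4.left_inv, h5]

variable [IsManifold 𝓘(ℂ, Cm n) ω X]

theorem D_comp {e e' e'' : Chart n X} {x : X} (h : At e x) (h' : At e' x) (h'' : At e'' x)
    (v : Cm n) : D e' e'' x (D e e' x v) = D e e'' x v := by
  have h1 : (fun z => e'' (e.symm z)) =ᶠ[𝓝 (e x)]
      (fun z => e'' (e'.symm z)) ∘ fun z => e' (e.symm z) := by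
    filter_upwards [h.nhds_at h'] with z hz
    rw [Function.comp, hz.2.2.left_inv]
  have h2 := fderiv_comp (e x) (g := fun z => e'' (e'.symm z))
    (by rw [h.left_inv]; exact transition_differentiableAt h' h'')
    (transition_differentiableAt h h')
  rw [D, D, D, h1.fderiv_eq, h2, h.left_inv]
  rfl

theorem tau_ch (hp : IsGalois Γ p) (h : Ov C p ea) (T : Ten C q k) {γ γ' : Γ} {a b : C.I}
    {z z' : Cm n} (hz : z ∈ C.B 4 a) (hz' : z' ∈ C.B 4 b) (e0 : C.pt γ a z = C.pt γ' b z')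
    {e : Chart n X} (he : At e (p (C.pt γ a z))) (g : Γ) (ξ : Fin q → Cm n) :
    T.τ (g * γ) a z (fun i => D e (ea a) (p (C.pt γ a z)) (ξ i)) =
      T.τ (g * γ') b z' fun i => D e (ea b) (p (C.pt γ a z)) (ξ i) := by
  have e1 : C.pt (γ'⁻¹ * γ) a z = (C.e b).symm z' := by
    rw [Cov.pt, mul_smul, inv_smul_eq_iff]
    exact e0
  have ho : C.Ov (γ'⁻¹ * γ) a b z := ⟨hz, e1 ▸ (C.e b).map_target (src hz')⟩
  have e2 : C.tr (γ'⁻¹ * γ) a b z = z' := by rw [Cov.tr, e1, (C.e b).right_inv (src hz')]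
  have e3 : p (C.pt (γ'⁻¹ * γ) a z) = p (C.pt γ a z) := by
    simp only [Cov.pt, p_smul hp]
  have h1 := T.ch (g * γ') _ a b z ho fun i => D e (ea a) (p (C.pt γ a z)) (ξ i)
  rw [mul_assoc, mul_inv_cancel_left, e2, tr_fderiv hp h ho, e3] at h1
  rw [h1]
  simp only [D_comp he (pt_at hp h γ hz).1 (e0 ▸ (pt_at hp h γ' hz').1)]

/-- `v` is the form given by the tensors `T` -/
def IsV (T : ι → Ten C q k) (p : E → X) (ea : C.I → Chart n X)
    (v : E → Chart n X → (Fin q → Cm n) → L2 (Γ × ι)) : Prop :=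
  ∀ γ a, ∀ z ∈ C.B 2 a, ∀ e, At e (p (C.pt γ a z)) → ∀ ξ, v (C.pt γ a z) e ξ =
    rei (sg ι γ) (G T a (z, fun i => D e (ea a) (p (C.pt γ a z)) (ξ i)))

theorem exists_v [Fintype ι] (hp : IsGalois Γ p) (h : Ov C p ea) (T : ι → Ten C q k) :
    ∃ v, IsV T p ea v := by
  choose γ a z hz e0 using C.cover
  have hz2 : ∀ y, z y ∈ C.B 2 (a y) := fun y => B_mono one_le_two _ (by simpa [Cov.B] using hz y)
  refine ⟨fun y e ξ => rei (sg ι (γ y)) (G T (a y) (z y, fun i => D e (ea (a y)) (p y) (ξ i))),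
    fun γ' b z' hz' e he ξ => lp.ext (funext fun l => ?_)⟩
  simp only [rei_apply, (G_an T (hz2 _) _).1, (G_an T hz' _).1, sg_apply, mul_inv_rev, inv_inv]
  exact (tau_ch hp h _ (B_mono (by norm_num) _ hz') (B_mono (by norm_num) _ (hz2 _)) (e0 _) he
    _ _).symm

variable [Fintype ι] {T : ι → Ten C q k} {v : E → Chart n X → (Fin q → Cm n) → L2 (Γ × ι)}

omit [IsManifold 𝓘(ℂ, Cm n) ω X] [Fintype ι] in
theorem IsV.eqv (hv : IsV T p ea v) (hp : IsGalois Γ p) (g : Γ) (y : E) (e : Chart n X)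
    (he : At e (p y)) (ξ : Fin q → Cm n) : v (g • y) e ξ = rei (sg ι g) (v y e ξ) := by
  obtain ⟨γ, a, z, hz, rfl⟩ := C.cover y
  have hz2 : z ∈ C.B 2 a := B_mono one_le_two _ (by simpa [Cov.B] using hz)
  have e1 : p (C.pt (g * γ) a z) = p (C.pt γ a z) := by simp only [Cov.pt, p_smul hp]
  have h1 := hv (g * γ) a z hz2 e (e1 ▸ he) ξ
  rw [e1] at h1
  rw [← mul_smul]
  refine h1.trans ((lp.ext (funext fun l => ?_)).trans
    (congrArg (rei (sg ι g)) (hv γ a z hz2 e he ξ)).symm)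
  simp only [rei_apply, sg_apply, mul_inv_rev, mul_assoc]

theorem IsV.hform (hv : IsV T p ea v) (hp : IsGalois Γ p) (h : Ov C p ea) :
    HForm n q k p (L2 (Γ × ι)) v := by
  have cov : ∀ y, ∃ γ a, ∃ z ∈ C.B 2 a, y = C.pt γ a z := fun y => by
    obtain ⟨γ, a, z, hz, e⟩ := C.cover y
    exact ⟨γ, a, z, B_mono one_le_two _ (by simpa [Cov.B] using hz), e⟩
  have b4 : ∀ {a z}, z ∈ C.B 2 a → z ∈ C.B 4 a := fun hz => B_mono (by norm_num) _ hz
  refine ⟨fun y e he => ?_, fun y e e' he he' ξ => ?_, fun y e he A ξ => ?_,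
    fun y y₁ e he h1 ξ => ?_⟩
  · obtain ⟨γ, a, z, hz, rfl⟩ := cov y
    obtain ⟨h1, h2⟩ := pt_at hp h γ (b4 hz)
    have h3 := (transition he h1).analyticAt
    refine ⟨fun w => rei (sg ι γ) (G T a (ea a (e.symm w.1),
      fun i => fderiv ℂ (fun z => ea a (e.symm z)) w.1 (w.2 i))), fun ξ => ?_, ?_⟩
    · refine ((rei (sg ι γ)).toContinuousLinearEquiv.analyticAt _).comp (AnalyticAt.comp
        (g := G T a) ?_ ((h3.fun_comp_of_eq analyticAt_fst rfl).prod (AnalyticAt.pi fun i => ?_)))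
      · rw [he.left_inv, h2]
        exact (G_an T hz _).2
      · exact ((ContinuousLinearMap.id ℂ (Cm n →L[ℂ] Cm n)).analyticAt_bilinear _).comp₂
          (h3.fderiv.fun_comp_of_eq analyticAt_fst rfl)
          (((ContinuousLinearMap.proj i : (Fin q → Cm n) →L[ℂ] Cm n).analyticAt _).comp
            analyticAt_snd)
    · filter_upwards [near (b4 hz) (isOpen_ball.mem_nhds hz),
        hp.cov.continuous.continuousAt.eventually (e.open_source.mem_nhds he.2)] with y h4 h5 ξ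
      obtain ⟨w, hw, rfl⟩ := h4
      rw [hv γ a w hw e ⟨he.1, h5⟩, e.left_inv h5, (pt_at hp h γ (b4 hw)).2]
      rfl
  · obtain ⟨γ, a, z, hz, rfl⟩ := cov y
    rw [hv γ a z hz e he, hv γ a z hz e' he']
    simp only [← D_comp he he' (pt_at hp h γ (b4 hz)).1]
    rfl
  · obtain ⟨γ, a, z, hz, rfl⟩ := cov y
    rw [hv γ a z hz e he, hv γ a z hz e he, ← map_smul]
    refine congrArg _ (lp.ext (funext fun l => ?_))
    rw [lp.coeFn_smul, Pi.smul_apply, (G_an T hz _).1, (G_an T hz _).1, smul_eq_mul,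
      ← (T l.2).det _ a z (b4 hz)]
    simp only [map_sum, map_smul]
  · obtain ⟨g, rfl⟩ := (hp.orb _ _).1 h1
    rw [hv.eqv hp g y e he, LinearIsometryEquiv.norm_map]

omit [IsManifold 𝓘(ℂ, Cm n) ω X] [Fintype ι] in
theorem lfin (hp : IsGalois Γ p) (hF : HForm n q k p (L2 (Γ × ι)) v)
    (he : ∀ g y e, At e (p y) → ∀ ξ, v (g • y) e ξ = rei (sg ι g) (v y e ξ)) {m : ℕ}
    (F : E → Cm m) : LFin Γ k p v F := by
  refine ⟨⊥, fun g hg y => by rw [Subgroup.mem_bot.1 hg, one_smul],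
    fun g hg y e _ ξ => by rw [Subgroup.mem_bot.1 hg, one_smul], fun y₀ e b γ t h => ?_⟩
  obtain ⟨s, hs⟩ := exists_mnr h.nf.bsurj
  let ξ₀ : Fin q → Cm n := fun j => s (Pi.single j 1)
  have h0 : 0 < ‖v y₀ e ξ₀‖ := by
    rw [h.nf.nf.self_of_nhds ξ₀]
    exact norm_pos_iff.2 (smul_ne_zero (pow_ne_zero k hs) h.nf.imm.1)
  obtain ⟨l₀, hl⟩ : ∃ l, γ (b (e (p y₀))) l ≠ 0 := by
    by_contra hc
    push Not at hc
    exact h.nf.imm.1 (lp.ext (funext hc))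
  set γ₀ := γ (b (e (p y₀)))
  have c0 : 0 < ‖γ₀ l₀‖ := norm_pos_iff.2 hl
  obtain ⟨r, hr, h1⟩ := Metric.mem_nhds_iff.1
    (h.nf.γan.continuousAt.preimage_mem_nhds (ball_mem_nhds _ (half_pos c0)))
  have h2 : Tendsto (fun y => v y e ξ₀) (𝓝 y₀) (𝓝 (v y₀ e ξ₀)) := by
    obtain ⟨Φ, a1, a2⟩ := hF.hol y₀ e h.nf.mem
    rw [a2.self_of_nhds]
    exact ((a1 ξ₀).continuousAt.tendsto.comp ((tendsto_chart hp.cov.continuous
      h.nf.mem).prodMk_nhds tendsto_const_nhds)).congr' (a2.mono fun y hy => (hy ξ₀).symm)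
  set M := ‖γ₀‖ + ‖γ₀ l₀‖ / 2
  have hM : 0 < M := by positivity
  set c := ‖v y₀ e ξ₀‖ / 2 / M * (‖γ₀ l₀‖ / 2)
  have hc : 0 < c := by positivity
  refine ⟨r, hr, _, inter_mem (h2.eventually (ball_mem_nhds _ (lt_min (half_pos h0) (half_pos hc))))
    (hp.cov.continuous.continuousAt.eventually (e.open_source.mem_nhds h.nf.mem.2)), ?_⟩
  have h3 : {g : Γ | c / 2 ≤ ‖v y₀ e ξ₀ (g * l₀.1, l₀.2)‖}.Finite :=
    (finite_ge _ (half_pos hc)).preimage (f := fun g : Γ => (g * l₀.1, l₀.2))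
      fun g _ g' _ e1 => mul_right_cancel (congrArg Prod.fst e1)
  refine (h3.image (fun g : Γ => (g : Γ ⧸ (⊥ : Subgroup Γ)))).subset ?_
  rintro _ ⟨g, rfl, y, ⟨y1, y2⟩, x, hx, e', β, b1, -, b2, b3⟩
  refine ⟨g, ?_, rfl⟩
  have y3 : At e (p y) := ⟨h.nf.mem.1, y2⟩
  obtain ⟨a, ha⟩ := b3.self_of_nhds.1 fun i =>
    fderiv ℂ (fun z => e' (e.symm z)) (e (p (g⁻¹ • y))) (ξ₀ i)
  rw [← hF.change _ e e' ((p_smul hp _ _).symm ▸ y3) b1, b2, he _ _ _ y3] at ha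
  have x1 : ‖γ x - γ₀‖ < ‖γ₀ l₀‖ / 2 := mem_ball_iff_norm.1 (h1 hx)
  have y4 : ‖v y e ξ₀ - v y₀ e ξ₀‖ < min (‖v y₀ e ξ₀‖ / 2) (c / 2) := mem_ball_iff_norm.1 y1
  rw [lt_min_iff] at y4
  have n1 : ‖v y e ξ₀‖ = ‖a‖ * ‖γ x‖ := by rw [← norm_smul, ← ha, LinearIsometryEquiv.norm_map]
  have n2 : ‖v y e ξ₀ (g * l₀.1, l₀.2)‖ = ‖a‖ * ‖γ x l₀‖ := by
    have h4 := congrArg (fun u : L2 (Γ × ι) => ‖u l₀‖) ha
    simpa only [rei_apply, sg_apply, inv_inv, lp.coeFn_smul, Pi.smul_apply, norm_smul] using h4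
  have n3 : ‖γ x‖ ≤ ‖γ₀‖ + ‖γ₀ l₀‖ / 2 := by linarith [norm_sub_norm_le (γ x) γ₀]
  have n4 : ‖γ₀ l₀‖ / 2 ≤ ‖γ x l₀‖ := by
    have h4 := norm_apply_le (γ₀ - γ x) l₀
    rw [lp.coeFn_sub, Pi.sub_apply, norm_sub_rev γ₀] at h4
    linarith [norm_sub_norm_le (γ₀ l₀) (γ x l₀)]
  have n5 : ‖v y₀ e ξ₀‖ / 2 / M ≤ ‖a‖ := by
    rw [div_le_iff₀ hM]
    have h4 := norm_sub_norm_le (v y₀ e ξ₀) (v y e ξ₀)
    rw [norm_sub_rev] at h4
    have h5 : ‖a‖ * ‖γ x‖ ≤ ‖a‖ * M := mul_le_mul_of_nonneg_left n3 (norm_nonneg a)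
    linarith
  have n6 : c ≤ ‖a‖ * ‖γ x l₀‖ := mul_le_mul n5 n4 (by positivity) (norm_nonneg a)
  have n7 := norm_apply_le (v y e ξ₀ - v y₀ e ξ₀) (g * l₀.1, l₀.2)
  rw [lp.coeFn_sub, Pi.sub_apply] at n7
  have n8 := norm_sub_norm_le (v y e ξ₀ (g * l₀.1, l₀.2)) (v y₀ e ξ₀ (g * l₀.1, l₀.2))
  change c / 2 ≤ _
  linarith

theorem exists_gam (B : BT C) : ∃ γ : Cm B.p → L2 (Γ × Option (Fin B.p)),
    AnalyticAt ℂ γ (B.b B.z₀) ∧ ∀ᶠ x in 𝓝 (B.b B.z₀), ∀ l, γ x l = B.h l.2 l.1⁻¹ x := by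
  obtain ⟨s, hs⟩ := exists_mnr B.b_surj
  let s' := LinearMap.toContinuousLinearMap s
  have a1 : AnalyticAt ℂ (fun w => B.z₀ + s' w) 0 := analyticAt_const.add (s'.analyticAt 0)
  have e1 : B.z₀ + s' 0 = B.z₀ := by simp
  have a2 : AnalyticAt ℂ (fun w => B.b (B.z₀ + s' w)) 0 := B.b_an.fun_comp_of_eq a1 e1
  have d1 : HasFDerivAt (fun w => B.b (B.z₀ + s' w)) ((fderiv ℂ B.b B.z₀).comp s') 0 :=
    HasFDerivAt.comp (f := fun w => B.z₀ + s' w) 0 (e1.symm ▸ B.b_an.differentiableAt.hasFDerivAt)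
      (s'.hasFDerivAt.const_add _)
  obtain ⟨f, f1, f2, f3⟩ := exists_branch a2 (by
    rw [d1.fderiv]
    refine bijective_of_det_ne_zero ?_
    rw [← det_clm_eq]
    exact hs) (analyticAt_id (z := B.b B.z₀)) (by rw [e1]; rfl)
  have a3 : AnalyticAt ℂ (fun x => B.z₀ + s' (f x)) (B.b B.z₀) := a1.fun_comp_of_eq f1 f2
  have e2 : B.z₀ + s' (f (B.b B.z₀)) = B.z₀ := by rw [f2, e1]
  have a4 := (mnr_analytic B.b_an s).fun_comp_of_eq a3 e2
  have hz : B.z₀ ∈ C.B 2 B.a := B_mono one_le_two _ B.mem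
  have t1 := a3.continuousAt.tendsto
  rw [e2] at t1
  refine ⟨fun x => (mnr B.b s (B.z₀ + s' (f x)) ^ B.k)⁻¹ •
    G B.T B.a (B.z₀ + s' (f x), fun j => s (Pi.single j 1)), ?_, ?_⟩
  · refine ((a4.pow _).inv ?_).smul ((G_an B.T hz fun j => s (Pi.single j 1)).2.fun_comp_of_eq
      (a3.prod analyticAt_const) ?_)
    · simpa only [Pi.pow_apply, e2] using pow_ne_zero B.k hs
    · rw [e2]
  · filter_upwards [f3, t1.eventually B.U_nhds, t1.eventually (isOpen_ball.mem_nhds hz),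
      t1.eventually ((mnr_analytic B.b_an s).continuousAt.eventually_ne hs)] with x h1 h2 h3 h4 l
    rw [lp.coeFn_smul, Pi.smul_apply, (G_an B.T h3 _).1, B.basic _ _ _ h2, h1, smul_eq_mul]
    exact inv_mul_cancel_left₀ (pow_ne_zero _ h4) _

omit [IsManifold 𝓘(ℂ, Cm n) ω X] in
theorem nff (B : BT C) {v : E → Chart n X → (Fin B.p → Cm n) → L2 (Γ × Option (Fin B.p))}
    (hv : IsV B.T p ea v) (hp : IsGalois Γ p) (h : Ov C p ea) :
    ∃ γ, IsNF B.k p v (C.pt 1 B.a B.z₀) (ea B.a) B.b γ := by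
  obtain ⟨γ, h1, h2⟩ := exists_gam B
  have hz : B.z₀ ∈ C.B 2 B.a := B_mono one_le_two _ B.mem
  have b4 : ∀ {z}, z ∈ C.B 2 B.a → z ∈ C.B 4 B.a := fun hz => B_mono (by norm_num) _ hz
  obtain ⟨h3, h4⟩ := pt_at hp h 1 (b4 hz)
  refine ⟨γ, h3, h4.symm ▸ B.b_an, h4.symm ▸ B.b_surj, h4.symm ▸ h1, ?_, ?_⟩
  · rw [h4]
    refine ⟨fun h0 => B.jet0.1 ?_, fun η c hc => B.jet1 η fun i => ?_⟩
    · have h5 := h2.self_of_nhds (1, none)
      rw [h0, inv_one] at h5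
      exact h5.symm
    · let ev : L2 (Γ × Option (Fin B.p)) →L[ℂ] ℂ := lp.evalCLM ℂ _ 2 (1, some i)
      have h5 : B.h (some i) 1 =ᶠ[𝓝 (B.b B.z₀)] ev ∘ γ := h2.mono fun x hx => by
        have h6 := hx (1, some i)
        rw [inv_one] at h6
        exact h6.symm
      rw [h5.fderiv_eq, (ev.hasFDerivAt.comp _ h1.differentiableAt.hasFDerivAt).fderiv,
        ContinuousLinearMap.comp_apply, hc, map_smul]
      have h6 : ev (γ (B.b B.z₀)) = 0 := h5.self_of_nhds.symm.trans (B.jet0.2 i)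
      rw [h6, smul_zero]
  · filter_upwards [near (γ := 1) (b4 hz) (inter_mem (inter_mem B.U_nhds (isOpen_ball.mem_nhds hz))
      (B.b_an.continuousAt.eventually h2))] with y hy ξ
    obtain ⟨w, ⟨⟨w1, w2⟩, w3⟩, rfl⟩ := hy
    obtain ⟨h5, h6⟩ := pt_at hp h 1 (b4 w2)
    rw [hv 1 B.a w w2 _ h5, h6]
    refine lp.ext (funext fun l => ?_)
    simp only [rei_apply, sg_apply, inv_one, one_mul, (G_an B.T w2 _).1, D_self h5]
    rw [B.basic _ _ _ w1, lp.coeFn_smul, Pi.smul_apply, w3 l, smul_eq_mul]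

end N

open N in
theorem stN : StN := by
  intro n X _ _ _ _ _ _ Γ E _ _ _ _ _ _ p C hp ho B hV
  choose ea h using ho
  obtain ⟨v, hv⟩ := exists_v hp h B.T
  obtain ⟨γ, hγ⟩ := nff B hv hp h
  exact hV E Γ p hp 0 (fun _ => 0)
    (fun y e _ => ⟨fun _ => 0, Eventually.of_forall fun _ => rfl, analyticAt_const⟩)
    (aff_of_trans (c := fun _ => 0) fun _ _ => by simp) (L2 (Γ × Option (Fin B.p))) B.p B.k
    B.p_pos B.k_pos v (hv.hform hp h)
    (fun g => ⟨(rei (sg _ g)).toLinearIsometry, fun y e he ξ => hv.eqv hp g y e he ξ⟩)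
    ⟨_, _, _, γ, fun _ => 0, hγ, analyticAt_const, Eventually.of_forall fun _ => rfl⟩
    (lfin hp (hv.hform hp h) (hv.eqv hp) _)

end Vale.Agent.P284Z
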